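import Vale.Agent.P284.R3.H348.Uni

/-!
# Campana's abelianity conjecture and maps to manifolds of nonpositive holomorphic sectional curvature

Let `X` be a special compact connected Kähler manifold of dimension `n`. Consider ALL holomorphic maps
`f : X → Z`, with surjective differential at one point, to compact connected Kähler manifolds `Z` of
nonpositive holomorphic sectional curvature, and let `K ≤ π₁(X)` be the intersection of the kernels of
the homomorphisms `π₁(X) → π₁(Z)` (`allKer`).

* Every such `Z` is flat, hence a finite étale quotient of a complex torus.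
* One subgroup `H` of `π₁(X)` of finite index satisfies `[H, H] ≤ K`: it has abelian image in `π₁(Z)`
  for all these maps, and `π₁(X) / K` is virtually abelian.
* If `K` is finite then `π₁(X)` is virtually abelian. In general `π₁(X)` is virtually abelian if and
  only if `K ∩ [H, H]` is finite for some subgroup `H` of finite index.
-/

open scoped Manifold ContDiff
open Vale.Agent.P272.K Vale.Agent.P284.H248 Vale.Agent.P284.R3.H348

namespace Vale.Agent.Results.P284.MapsNonposHSC

theorem result {n : ℕ} {X : Type} [TopologicalSpace X] [T2Space X] [CompactSpace X]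
    [ConnectedSpace X] [ChartedSpace (Cm n) X] [IsManifold 𝓘(ℂ, Cm n) ω X]
    (w : Chart n X → Cm n → Matrix (Fin n) (Fin n) ℂ) (hw : IsKahler w) (hX : Special n X) :
    (∀ (Z : NPMfd) (_ : DomMap n X Z), Z.Flat ∧ Z.TorusQuotient ∧
      ∀ z : Z.Z, VirtuallyAbelian (FundamentalGroup Z.Z z)) ∧
    ∀ x : X, (∃ H : Subgroup (FundamentalGroup X x), H.FiniteIndex ∧ ⁅H, H⁆ ≤ allKer n X x) ∧
      ((allKer n X x : Set (FundamentalGroup X x)).Finite →
        VirtuallyAbelian (FundamentalGroup X x)) ∧
      (VirtuallyAbelian (FundamentalGroup X x) ↔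
        ∃ H : Subgroup (FundamentalGroup X x), H.FiniteIndex ∧
          ((⁅H, H⁆ ⊓ allKer n X x : Subgroup (FundamentalGroup X x)) :
            Set (FundamentalGroup X x)).Finite) := by
  refine ⟨fun Z F => ?_, fun x => ?_⟩
  · have h := flat_of_domMap hw hX F
    exact ⟨h, torus_of_flat Z.kahler h, virtuallyAbelian_of_flat Z.kahler h⟩
  · have h := exists_uniform_subgroup hw hX x
    have h2 := virtuallyAbelian_iff_of_le (fg_pi1 (n := n) x) h
    exact ⟨h, fun hK => h2.2 ⟨⊤, inferInstance, hK.subset fun g hg => hg.2⟩, h2⟩

end Vale.Agent.Results.P284.MapsNonposHSC
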